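import Vale.Agent.P092.H259.Ad.Defs
import Mathlib.Analysis.Matrix.Spectrum
import Mathlib.Analysis.Matrix.PosDef
import Mathlib.Analysis.SpecialFunctions.Log.Basic
import Mathlib.Analysis.SpecialFunctions.Exponential

/-!
P092, project RE-ADJ, block [AD-4] (helper338): symmetric automorphisms of a minimal bracket
(Kempf–Ness), and the automorphism group of a minimal bracket is self-adjoint.
-/

set_option linter.all false

open Matrix Filter Topology

namespace Vale.Agent.P092.H338.Ad

open Vale.Agent.P092.H793.Re (Mat SLn RS Lie)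
open Vale.Agent.P092.H259.Ad

variable {n : ℕ}

/-- the bracket as a bilinear map -/
def brL (c : Ten n) : (Fin n → ℝ) →ₗ[ℝ] (Fin n → ℝ) →ₗ[ℝ] (Fin n → ℝ) :=
  LinearMap.mk₂ ℝ (br c)
    (fun x x' y => by
      funext l; simp only [br, Pi.add_apply, mul_add, add_mul, Finset.sum_add_distrib])
    (fun a x y => by
      funext l; simp only [br, Pi.smul_apply, smul_eq_mul, Finset.mul_sum]
      exact Finset.sum_congr rfl fun i _ => Finset.sum_congr rfl fun j _ => by ring)
    (fun x y y' => by
      funext l; simp only [br, Pi.add_apply, mul_add, add_mul, Finset.sum_add_distrib])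
    (fun a x y => by
      funext l; simp only [br, Pi.smul_apply, smul_eq_mul, Finset.mul_sum]
      exact Finset.sum_congr rfl fun i _ => Finset.sum_congr rfl fun j _ => by ring)

theorem brL_apply (c : Ten n) (x y : Fin n → ℝ) : brL c x y = br c x y := rfl

theorem br_single (c : Ten n) (i j : Fin n) :
    br c (Pi.single i 1) (Pi.single j 1) = c i j := by
  funext l
  simp [br, Pi.single_apply]

theorem ext_br {B B' : (Fin n → ℝ) →ₗ[ℝ] (Fin n → ℝ) →ₗ[ℝ] (Fin n → ℝ)}
    (h : ∀ i j, B (Pi.single i 1) (Pi.single j 1) = B' (Pi.single i 1) (Pi.single j 1)) :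
    B = B' := by
  ext i j l
  exact congrFun (h i j) l

/-- transport of a bracket -/
def act (g gi : Mat n) (c : Ten n) : Ten n :=
  fun i j => g *ᵥ br c (gi *ᵥ Pi.single i 1) (gi *ᵥ Pi.single j 1)

theorem br_act (g gi : Mat n) (c : Ten n) (x y : Fin n → ℝ) :
    br (act g gi c) x y = g *ᵥ br c (gi *ᵥ x) (gi *ᵥ y) := by
  have h : brL (act g gi c) =
      ((brL c).compl₁₂ (toLin' gi) (toLin' gi)).compr₂ (toLin' g) := by
    apply ext_br
    intro i j
    rw [brL_apply, br_single]
    simp only [LinearMap.compr₂_apply, LinearMap.compl₁₂_apply, toLin'_apply, brL_apply]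
    rfl
  have h2 := congrArg (fun B => B x y) h
  simpa only [LinearMap.compr₂_apply, LinearMap.compl₁₂_apply, toLin'_apply, brL_apply] using h2

theorem iso_act {g gi : Mat n} (h : gi * g = 1) (c : Ten n) : Iso g c (act g gi c) := by
  intro x y
  rw [br_act, mulVec_mulVec, mulVec_mulVec, h, one_mulVec, one_mulVec]

theorem iso_trans {g h : Mat n} {c c' c'' : Ten n} (hg : Iso g c c') (hh : Iso h c' c'') :
    Iso (h * g) c c'' := by
  intro x y
  rw [← mulVec_mulVec, hg, hh, mulVec_mulVec, mulVec_mulVec]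

theorem iso_inv {g gi : Mat n} {c c' : Ten n} (hg : Iso g c c') (h1 : gi * g = 1)
    (h2 : g * gi = 1) : Iso gi c' c := by
  intro x y
  have hx : ∀ z, g *ᵥ (gi *ᵥ z) = z := fun z => by rw [mulVec_mulVec, h2, one_mulVec]
  have h3 : ∀ z, gi *ᵥ (g *ᵥ z) = z := fun z => by rw [mulVec_mulVec, h1, one_mulVec]
  calc gi *ᵥ br c' x y = gi *ᵥ br c' (g *ᵥ (gi *ᵥ x)) (g *ᵥ (gi *ᵥ y)) := by rw [hx, hx]
    _ = br c (gi *ᵥ x) (gi *ᵥ y) := by rw [← hg, h3]

theorem iso_eq {g gi : Mat n} {c c' c'' : Ten n} (hg : Iso g c c') (hg' : Iso g c c'')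
    (h2 : g * gi = 1) : c' = c'' := by
  have hx : ∀ z, g *ᵥ (gi *ᵥ z) = z := fun z => by rw [mulVec_mulVec, h2, one_mulVec]
  funext i j
  rw [← br_single c', ← br_single c'']
  calc br c' (Pi.single i 1) (Pi.single j 1)
      = br c' (g *ᵥ (gi *ᵥ Pi.single i 1)) (g *ᵥ (gi *ᵥ Pi.single j 1)) := by rw [hx, hx]
    _ = br c'' (g *ᵥ (gi *ᵥ Pi.single i 1)) (g *ᵥ (gi *ᵥ Pi.single j 1)) := by rw [← hg, ← hg']
    _ = _ := by rw [hx, hx]

/-- Parseval -/
theorem pars {k : Mat n} (hk : kᵀ * k = 1) (f : Fin n → ℝ) :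
    ∑ i, (∑ a, k i a * f a) ^ 2 = ∑ a, f a ^ 2 := by
  have h1 : ∀ v : Fin n → ℝ, ∑ i, v i ^ 2 = v ⬝ᵥ v := fun v => by
    simp only [dotProduct, sq]
  have h2 : (fun i => ∑ a, k i a * f a) = k *ᵥ f := rfl
  calc ∑ i, (∑ a, k i a * f a) ^ 2 = (k *ᵥ f) ⬝ᵥ (k *ᵥ f) := h1 (k *ᵥ f)
    _ = f ⬝ᵥ f := by
      rw [dotProduct_mulVec, vecMul_mulVec, hk, vecMul_one]
    _ = _ := (h1 f).symm

theorem hs_orth {k : Mat n} (hk : kᵀ * k = 1) {c c' : Ten n} (h : Iso k c c') :
    hs c' = hs c := by
  have hk' : k * kᵀ = 1 := mul_eq_one_comm.mp hk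
  have h1 : c' = act k kᵀ c := iso_eq h (iso_act hk c) hk'
  have h2 : ∀ i j l, c' i j l = ∑ m, k l m * (∑ b, k j b * (∑ a, k i a * c a b m)) := by
    intro i j l
    rw [h1]
    simp only [act, mulVec, dotProduct, br, transpose_apply, Pi.single_apply, mul_ite, mul_one,
      mul_zero, Finset.sum_ite_eq', Finset.sum_ite_eq, Finset.mem_univ, if_true]
    refine Finset.sum_congr rfl fun m _ => ?_
    congr 1
    rw [Finset.sum_comm]
    refine Finset.sum_congr rfl fun b _ => ?_
    rw [Finset.mul_sum]
    exact Finset.sum_congr rfl fun a _ => by ring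
  calc hs c' = ∑ i, ∑ j, ∑ m, (∑ b, k j b * (∑ a, k i a * c a b m)) ^ 2 := by
        unfold hs
        refine Finset.sum_congr rfl fun i _ => Finset.sum_congr rfl fun j _ => ?_
        rw [← pars hk (fun m => ∑ b, k j b * (∑ a, k i a * c a b m))]
        exact Finset.sum_congr rfl fun l _ => by rw [h2]
    _ = ∑ i, ∑ m, ∑ j, (∑ b, k j b * (∑ a, k i a * c a b m)) ^ 2 :=
        Finset.sum_congr rfl fun i _ => Finset.sum_comm
    _ = ∑ i, ∑ m, ∑ b, (∑ a, k i a * c a b m) ^ 2 := by
        refine Finset.sum_congr rfl fun i _ => Finset.sum_congr rfl fun m _ => ?_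
        exact pars hk _
    _ = ∑ m, ∑ b, ∑ i, (∑ a, k i a * c a b m) ^ 2 := by
        rw [Finset.sum_comm]
        exact Finset.sum_congr rfl fun m _ => Finset.sum_comm
    _ = ∑ m, ∑ b, ∑ a, c a b m ^ 2 :=
        Finset.sum_congr rfl fun m _ => Finset.sum_congr rfl fun b _ => pars hk _
    _ = hs c := by
        unfold hs
        rw [Finset.sum_comm' (t' := Finset.univ) (s' := fun _ => Finset.univ) (by simp)]
        rw [Finset.sum_congr rfl fun b _ => Finset.sum_comm]
        rw [Finset.sum_comm]

theorem iso_diag {a : Fin n → ℝ} {d d' : Ten n} :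
    Iso (diagonal a) d d' ↔ ∀ i j l, a l * d i j l = d' i j l * a i * a j := by
  have key : ∀ i j, (diagonal a *ᵥ br d (Pi.single i 1) (Pi.single j 1) =
      br d' (diagonal a *ᵥ Pi.single i 1) (diagonal a *ᵥ Pi.single j 1)) ↔
      ∀ l, a l * d i j l = d' i j l * a i * a j := by
    intro i j
    rw [br_single]
    have h1 : ∀ i, diagonal a *ᵥ Pi.single i (1:ℝ) = a i • Pi.single i 1 := fun i => by
      rw [Matrix.diagonal_mulVec_single]
      rw [← Pi.single_smul]
      simp
    rw [h1, h1, ← brL_apply]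
    simp only [map_smul, LinearMap.smul_apply]
    rw [brL_apply, br_single, funext_iff]
    refine forall_congr' fun l => ?_
    simp only [mulVec_diagonal, Pi.smul_apply, smul_eq_mul]
    constructor <;> intro h <;> rw [h] <;> ring
  constructor
  · intro h i j
    exact (key i j).1 (h _ _)
  · intro h x y
    have h3 : (brL d).compr₂ (toLin' (diagonal a)) =
        (brL d').compl₁₂ (toLin' (diagonal a)) (toLin' (diagonal a)) := by
      apply ext_br
      intro i j
      simp only [LinearMap.compr₂_apply, LinearMap.compl₁₂_apply, toLin'_apply, brL_apply]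
      exact (key i j).2 (h i j)
    have h2 := congrArg (fun B => B x y) h3
    simpa only [LinearMap.compr₂_apply, LinearMap.compl₁₂_apply, toLin'_apply, brL_apply] using h2

/-- the real spectral theorem -/
theorem spec {X : Mat n} (hX : Xᵀ = X) :
    ∃ (U : Mat n) (x : Fin n → ℝ), Uᵀ * U = 1 ∧ U * Uᵀ = 1 ∧ X = U * diagonal x * Uᵀ := by
  have hH : X.IsHermitian := by
    rw [IsHermitian, conjTranspose_eq_transpose_of_trivial, hX]
  refine ⟨hH.eigenvectorUnitary.1, hH.eigenvalues, ?_, ?_, ?_⟩
  · have := Unitary.coe_star_mul_self hH.eigenvectorUnitary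
    rwa [star_eq_conjTranspose, conjTranspose_eq_transpose_of_trivial] at this
  · have := (Matrix.mem_unitaryGroup_iff).1 hH.eigenvectorUnitary.2
    rwa [star_eq_conjTranspose, conjTranspose_eq_transpose_of_trivial] at this
  · have := hH.spectral_theorem
    rw [Unitary.conjStarAlgAut_apply] at this
    rw [star_eq_conjTranspose, conjTranspose_eq_transpose_of_trivial] at this
    exact this

theorem exp_spec {U : Mat n} (h1 : Uᵀ * U = 1) (h2 : U * Uᵀ = 1) (x : Fin n → ℝ) (s : ℝ) :
    NormedSpace.exp (s • (U * diagonal x * Uᵀ)) =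
      U * diagonal (fun i => Real.exp (s * x i)) * Uᵀ := by
  have hU : U⁻¹ = Uᵀ := inv_eq_left_inv h1
  have hu : IsUnit U := ⟨⟨U, Uᵀ, h2, h1⟩, rfl⟩
  have h3 : s • (U * diagonal x * Uᵀ) = U * diagonal (fun i => s * x i) * U⁻¹ := by
    rw [hU, ← Matrix.smul_mul, ← Matrix.mul_smul]
    congr 2
    rw [← diagonal_smul]
    rfl
  rw [h3, Matrix.exp_conj _ _ hu, exp_diagonal, hU]
  congr 3
  funext i
  rw [Pi.coe_exp, Real.exp_eq_exp_ℝ]

/-- **Kempf–Ness** for brackets. -/
theorem sym_gen {c : Ten n} (hc : Min c) {X : Mat n} (hX : Xᵀ = X) (htr : X.trace = 0)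
    {c' : Ten n} (hi : Iso (NormedSpace.exp X) c c') (hle : hs c' ≤ hs c) (s : ℝ) :
    Iso (NormedSpace.exp (s • X)) c c := by
  obtain ⟨U, x, h1, h2, rfl⟩ := spec hX
  have hsum : ∑ i, x i = 0 := by
    rw [Matrix.trace_mul_comm, ← Matrix.mul_assoc, h1, Matrix.one_mul, trace_diagonal] at htr
    exact htr
  set d := act Uᵀ U c with hd
  set d' := act Uᵀ U c' with hd'
  have iU : Iso Uᵀ c d := iso_act h2 c
  have iU' : Iso Uᵀ c' d' := iso_act h2 c'
  have iV : Iso U d c := iso_inv iU h2 h1
  have hUT : Uᵀᵀ * Uᵀ = 1 := by rwa [transpose_transpose]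
  have hhd : hs d = hs c := hs_orth hUT iU
  have hhd' : hs d' = hs c' := hs_orth hUT iU'
  have hE := exp_spec h1 h2 x 1
  rw [one_smul] at hE
  rw [hE] at hi
  have i1 : Iso (diagonal fun i => Real.exp (1 * x i)) d d' := by
    have := iso_trans (iso_trans iV hi) iU'
    have h3 : Uᵀ * (U * (diagonal fun i => Real.exp (1 * x i)) * Uᵀ * U) =
        diagonal fun i => Real.exp (1 * x i) := by
      rw [Matrix.mul_assoc _ Uᵀ U, h1, Matrix.mul_one, ← Matrix.mul_assoc, h1, Matrix.one_mul]
    rwa [h3] at this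
  rw [iso_diag] at i1
  have e1 : ∀ i j l, d' i j l = Real.exp (x l - x i - x j) * d i j l := by
    intro i j l
    have h3 := i1 i j l
    rw [one_mul, one_mul, one_mul] at h3
    have h4 : Real.exp (x l) = Real.exp (x l - x i - x j) * Real.exp (x i) * Real.exp (x j) := by
      rw [← Real.exp_add, ← Real.exp_add]; congr 1; ring
    rw [h4] at h3
    have h5 : Real.exp (x i) * Real.exp (x j) ≠ 0 := by positivity
    apply mul_right_cancel₀ h5
    linear_combination -h3
  let d'' : Ten n := fun i j l => Real.exp ((x l - x i - x j) / 2) * d i j l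
  have i2 : Iso (diagonal (fun i => Real.exp (x i / 2)) * Uᵀ) c d'' := by
    refine iso_trans iU (iso_diag.2 fun i j l => ?_)
    have h4 : Real.exp (x l / 2) =
        Real.exp ((x l - x i - x j) / 2) * Real.exp (x i / 2) * Real.exp (x j / 2) := by
      rw [← Real.exp_add, ← Real.exp_add]; congr 1; ring
    simp only [d'']
    rw [h4]; ring
  have hdet : |(diagonal (fun i => Real.exp (x i / 2)) * Uᵀ).det| = 1 := by
    rw [det_mul, det_diagonal, ← Real.exp_sum, ← Finset.sum_div, hsum, zero_div, Real.exp_zero,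
      one_mul]
    have h3 : U.det * U.det = 1 := by
      have := congrArg det h1
      rwa [det_mul, det_transpose, det_one] at this
    rw [det_transpose]
    have h4 : |U.det| * |U.det| = 1 := by rw [← abs_mul, h3, abs_one]
    nlinarith [abs_nonneg U.det]
  have hmin : hs c ≤ hs d'' := hc _ _ hdet i2
  have hsum2 : ∑ i, ∑ j, ∑ l, (d i j l * (Real.exp ((x l - x i - x j)) - 1)) ^ 2 ≤ 0 := by
    have h3 : ∑ i, ∑ j, ∑ l, (d i j l * (Real.exp ((x l - x i - x j)) - 1)) ^ 2 =
        hs d + hs d' - 2 * hs d'' := by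
      unfold hs
      simp only [Finset.mul_sum, ← Finset.sum_add_distrib, ← Finset.sum_sub_distrib]
      refine Finset.sum_congr rfl fun i _ => Finset.sum_congr rfl fun j _ =>
        Finset.sum_congr rfl fun l _ => ?_
      rw [e1]
      simp only [d'']
      have h4 : Real.exp (x l - x i - x j) = Real.exp ((x l - x i - x j) / 2) ^ 2 := by
        rw [← Real.exp_nat_mul]; congr 1; push_cast; ring
      rw [h4]; ring
    rw [h3]
    linarith
  have hz : ∀ i j l, d i j l * (Real.exp (x l - x i - x j) - 1) = 0 := by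
    intro i j l
    have h0 : ∀ i j l, 0 ≤ (d i j l * (Real.exp ((x l - x i - x j)) - 1)) ^ 2 :=
      fun i j l => sq_nonneg _
    have h3 : (d i j l * (Real.exp ((x l - x i - x j)) - 1)) ^ 2 ≤ 0 := by
      refine le_trans ?_ hsum2
      calc (d i j l * (Real.exp ((x l - x i - x j)) - 1)) ^ 2
          ≤ ∑ l, (d i j l * (Real.exp ((x l - x i - x j)) - 1)) ^ 2 :=
            Finset.single_le_sum (f := fun l => (d i j l * (Real.exp ((x l - x i - x j)) - 1)) ^ 2)
              (fun l _ => h0 i j l) (Finset.mem_univ l)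
        _ ≤ ∑ j, ∑ l, (d i j l * (Real.exp ((x l - x i - x j)) - 1)) ^ 2 :=
            Finset.single_le_sum
              (f := fun j => ∑ l, (d i j l * (Real.exp ((x l - x i - x j)) - 1)) ^ 2)
              (fun j _ => Finset.sum_nonneg fun l _ => h0 i j l) (Finset.mem_univ j)
        _ ≤ _ := Finset.single_le_sum
              (f := fun i => ∑ j, ∑ l, (d i j l * (Real.exp ((x l - x i - x j)) - 1)) ^ 2)
              (fun i _ => Finset.sum_nonneg fun j _ => Finset.sum_nonneg fun l _ => h0 i j l)
              (Finset.mem_univ i)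
    exact pow_eq_zero_iff (two_ne_zero) |>.1 (le_antisymm h3 (sq_nonneg _))
  have hzero : ∀ i j l, d i j l = 0 ∨ x l = x i + x j := by
    intro i j l
    rcases mul_eq_zero.1 (hz i j l) with h | h
    · exact Or.inl h
    · right
      have h3 : Real.exp (x l - x i - x j) = 1 := by linarith
      rw [Real.exp_eq_one_iff] at h3
      linarith
  rw [exp_spec h1 h2 x s]
  have i3 : Iso (diagonal fun i => Real.exp (s * x i)) d d := by
    rw [iso_diag]
    intro i j l
    rcases hzero i j l with h | h
    · rw [h]; ring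
    · have : Real.exp (s * x l) = Real.exp (s * x i) * Real.exp (s * x j) := by
        rw [← Real.exp_add, h]; congr 1; ring
      rw [this]; ring
  have := iso_trans (iso_trans iU i3) iV
  rwa [← Matrix.mul_assoc] at this

/-- [AD-4] -/
theorem symB (c : Ten n) (hc : Min c) (X : Mat n) (hX : Xᵀ = X) (htr : X.trace = 0)
    (hi : Iso (NormedSpace.exp X) c c) (s : ℝ) : Iso (NormedSpace.exp (s • X)) c c :=
  sym_gen hc hX htr hi le_rfl s

/-- **The automorphism group of a minimal bracket is self-adjoint**; moreover the polar factor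
`exp X` of an automorphism and its powers are automorphisms. -/
theorem polar_min {c : Ten n} (hc : Min c) {g : Mat n} (hg : |g.det| = 1) (hi : Iso g c c) :
    ∃ k X : Mat n, kᵀ * k = 1 ∧ k * kᵀ = 1 ∧ Xᵀ = X ∧ X.trace = 0 ∧
      g = k * NormedSpace.exp X ∧ Iso k c c ∧ Iso kᵀ c c ∧
      ∀ s : ℝ, Iso (NormedSpace.exp (s • X)) c c := by
  have hdet0 : g.det ≠ 0 := fun h => by rw [h, abs_zero] at hg; exact zero_ne_one hg
  have hS : (gᵀ * g)ᵀ = gᵀ * g := by rw [transpose_mul, transpose_transpose]
  obtain ⟨U, μ, h1, h2, hU⟩ := spec hS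
  have hD : diagonal μ = (g * U)ᵀ * (g * U) := by
    rw [transpose_mul]
    calc diagonal μ = Uᵀ * (U * diagonal μ * Uᵀ) * U := by
          rw [Matrix.mul_assoc, Matrix.mul_assoc U, Matrix.mul_assoc U, Matrix.mul_assoc (diagonal μ),
            h1, Matrix.mul_one, ← Matrix.mul_assoc, h1, Matrix.one_mul]
      _ = _ := by rw [← hU]; simp only [Matrix.mul_assoc]
  have hμ0 : ∀ i, 0 ≤ μ i := by
    intro i
    have h3 : μ i = ∑ a, (g * U) a i * (g * U) a i := by
      have := congrFun (congrFun hD i) i
      rw [diagonal_apply_eq, Matrix.mul_apply] at this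
      exact this
    rw [h3]
    exact Finset.sum_nonneg fun a _ => mul_self_nonneg _
  have hU2 : U.det * U.det = 1 := by
    have := congrArg det h1
    rwa [det_mul, det_transpose, det_one] at this
  have hprod : ∏ i, μ i = 1 := by
    have := congrArg det hD
    rw [det_diagonal, det_mul, det_transpose, det_mul] at this
    rw [this]
    have h4 : g.det * g.det = 1 := by rw [← abs_mul_abs_self, hg, one_mul]
    linear_combination (g.det * g.det) * hU2 + h4
  have hμ : ∀ i, 0 < μ i := by
    intro i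
    refine lt_of_le_of_ne (hμ0 i) fun h => ?_
    have : ∏ i, μ i = 0 := Finset.prod_eq_zero (Finset.mem_univ i) h.symm
    rw [hprod] at this
    exact one_ne_zero this
  let x : Fin n → ℝ := fun i => Real.log (μ i) / 2
  let X : Mat n := U * diagonal x * Uᵀ
  have hX : Xᵀ = X := by
    simp only [X]
    rw [transpose_mul, transpose_mul, transpose_transpose, diagonal_transpose, Matrix.mul_assoc]
  have htr : X.trace = 0 := by
    simp only [X]
    rw [Matrix.trace_mul_comm, ← Matrix.mul_assoc, h1, Matrix.one_mul, trace_diagonal]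
    simp only [x]
    rw [← Finset.sum_div, ← Real.log_prod (fun i _ => (hμ i).ne'), hprod, Real.log_one, zero_div]
  have hE := exp_spec h1 h2 x
  have hE1 : NormedSpace.exp X = U * diagonal (fun i => Real.exp (x i)) * Uᵀ := by
    have := hE 1
    simpa only [one_smul, one_mul] using this
  have hEm : NormedSpace.exp (-X) = U * diagonal (fun i => Real.exp (-x i)) * Uᵀ := by
    have := hE (-1)
    simpa only [neg_smul, one_smul, neg_mul, one_mul] using this
  let p := NormedSpace.exp X
  let q := NormedSpace.exp (-X)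
  have hpq : p * q = 1 := by
    simp only [p, q]
    rw [hE1, hEm]
    calc U * diagonal (fun i => Real.exp (x i)) * Uᵀ * (U * diagonal (fun i => Real.exp (-x i)) * Uᵀ)
        = U * (diagonal (fun i => Real.exp (x i)) * (Uᵀ * U) * diagonal (fun i => Real.exp (-x i)))
            * Uᵀ := by simp only [Matrix.mul_assoc]
      _ = 1 := by
        rw [h1, Matrix.mul_one, diagonal_mul_diagonal]
        have : (fun i => Real.exp (x i) * Real.exp (-x i)) = fun _ => 1 := by
          funext i; rw [← Real.exp_add, add_neg_cancel, Real.exp_zero]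
        rw [this, diagonal_one, Matrix.mul_one, h2]
  have hqp : q * p = 1 := mul_eq_one_comm.mp hpq
  have hqT : qᵀ = q := by
    simp only [q]
    rw [hEm, transpose_mul, transpose_mul, transpose_transpose, diagonal_transpose,
      Matrix.mul_assoc]
  let k := g * q
  have hkp : k * p = g := by
    simp only [k]; rw [Matrix.mul_assoc, hqp, Matrix.mul_one]
  have hk : kᵀ * k = 1 := by
    simp only [k]
    rw [transpose_mul, hqT]
    calc q * gᵀ * (g * q) = q * (gᵀ * g) * q := by simp only [Matrix.mul_assoc]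
      _ = q * (p * p) * q := by
        congr 2
        rw [hU]
        simp only [p]
        rw [hE1]
        calc U * diagonal μ * Uᵀ = U * (diagonal (fun i => Real.exp (x i)) *
              diagonal (fun i => Real.exp (x i))) * Uᵀ := by
              rw [diagonal_mul_diagonal]
              congr 3
              funext i
              rw [← Real.exp_add]
              simp only [x]
              rw [add_halves, Real.exp_log (hμ i)]
          _ = _ := by
              rw [show U * diagonal (fun i => Real.exp (x i)) * Uᵀ *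
                (U * diagonal (fun i => Real.exp (x i)) * Uᵀ) =
                U * (diagonal (fun i => Real.exp (x i)) * (Uᵀ * U) *
                diagonal (fun i => Real.exp (x i))) * Uᵀ by simp only [Matrix.mul_assoc]]
              rw [h1, Matrix.mul_one]
      _ = (q * p) * (p * q) := by simp only [Matrix.mul_assoc]
      _ = 1 := by rw [hpq, hqp, Matrix.mul_one]
  have hk' : k * kᵀ = 1 := mul_eq_one_comm.mp hk
  have hpk : kᵀ * g = p := by rw [← hkp, ← Matrix.mul_assoc, hk, Matrix.one_mul]
  have hik : Iso kᵀ c (act kᵀ k c) := iso_act hk' c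
  have hip : Iso p c (act kᵀ k c) := by
    have := iso_trans hi hik
    rwa [hpk] at this
  have hle : hs (act kᵀ k c) ≤ hs c := le_of_eq (hs_orth (by rwa [transpose_transpose]) hik)
  have hall := sym_gen hc hX htr hip hle
  have hp1 : Iso p c c := by
    have := hall 1
    rwa [one_smul] at this
  have hq1 : Iso q c c := iso_inv hp1 hqp hpq
  have hk1 : Iso k c c := iso_trans hq1 hi
  exact ⟨k, X, hk, hk', hX, htr, hkp.symm, hk1, iso_inv hk1 hk hk', hall⟩

theorem adj_min {c : Ten n} (hc : Min c) {g : Mat n} (hg : |g.det| = 1) (hi : Iso g c c) :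
    Iso gᵀ c c := by
  obtain ⟨k, X, hk, hk', hX, htr, rfl, h1, h2, h3⟩ := polar_min hc hg hi
  rw [transpose_mul, ← Matrix.exp_transpose, hX]
  have := h3 1
  rw [one_smul] at this
  exact iso_trans h2 this

end Vale.Agent.P092.H338.Ad
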