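import Vale.Agent.P092.H338.Ad4
import Vale.Agent.P092.H381.Ad.H2
import Vale.Agent.P092.H793.Re.L
import Mathlib.Analysis.Calculus.Deriv.Prod
import Mathlib.Analysis.Calculus.MeanValue
import Mathlib.Algebra.Order.Star.Real

/-!
P092, project RE-ADJ, block [AD-5] (helper338): the identity component of the automorphism group of a
bracket: closed embedding, connected, self-adjoint, square roots, Lie algebra = derivations = `ad`.
-/

set_option linter.all false

open Matrix Filter Topology

namespace Vale.Agent.P092.H338.Ad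

open Vale.Agent.P092.H793.Re (Mat SLn RS Lie)
open Vale.Agent.P092.H259.Ad

attribute [local instance] Matrix.linftyOpNormedRing Matrix.linftyOpNormedAlgebra

variable {n : ℕ}

/-- the derivations of `c` -/
def Der (c : Ten n) (X : Mat n) : Prop :=
  ∀ x y, X *ᵥ br c x y = br c (X *ᵥ x) y + br c x (X *ᵥ y)

/-! ### (a) topology -/

theorem cont_brx (c : Ten n) : Continuous fun p : (Fin n → ℝ) × (Fin n → ℝ) => br c p.1 p.2 := by
  unfold br
  fun_prop

theorem isClosed_iso (c c' : Ten n) : IsClosed {g : Mat n | Iso g c c'} := by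
  have : {g : Mat n | Iso g c c'} =
      ⋂ x, ⋂ y, {g : Mat n | g *ᵥ br c x y = br c' (g *ᵥ x) (g *ᵥ y)} := by
    ext g; simp [Iso]
  rw [this]
  refine isClosed_iInter fun x => isClosed_iInter fun y => isClosed_eq ?_ ?_
  · exact continuous_id.matrix_mulVec continuous_const
  · exact (cont_brx c').comp ((continuous_id.matrix_mulVec continuous_const).prodMk
      (continuous_id.matrix_mulVec continuous_const))

theorem isClosed_aut (c : Ten n) : IsClosed (aut c : Set (SLn n)) :=
  (isClosed_iso c c).preimage continuous_subtype_val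

theorem rho_emb (c : Ten n) : IsClosedEmbedding (rho c) := by
  have h1 : IsClosedEmbedding (Subtype.val : aut c → SLn n) := (isClosed_aut c).isClosedEmbedding_subtypeVal
  have h2 : IsClosedEmbedding (Subtype.val : Aut0 c → aut c) :=
    (show IsClosed (Aut0 c : Set (aut c)) from isClosed_connectedComponent).isClosedEmbedding_subtypeVal
  exact h1.comp h2

theorem conn (c : Ten n) : PreconnectedSpace (Aut0 c) :=
  Subtype.preconnectedSpace isPreconnected_connectedComponent

theorem rho_iso {c : Ten n} (g : Aut0 c) : Iso (rho c g).1 c c := g.1.2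

/-- membership through a connected set -/
theorem exists_of_pre {c : Ten n} {S : Set (aut c)} (hS : IsPreconnected S) (h1 : (1 : aut c) ∈ S)
    {g : aut c} (hg : g ∈ S) : ∃ g' : Aut0 c, (rho c g').1 = g.1.1 :=
  ⟨⟨g, hS.subset_connectedComponent h1 hg⟩, rfl⟩

/-! ### (b) self-adjointness -/

theorem rho_adj {c : Ten n} (hc : Min c) (g : Aut0 c) : ∃ g' : Aut0 c, (rho c g').1 = (rho c g).1ᵀ := by
  have hd : ∀ g : aut c, |g.1.1.det| = 1 := fun g => by rw [g.1.2, abs_one]
  let τ : aut c → aut c := fun g =>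
    ⟨⟨g.1.1ᵀ, by rw [det_transpose]; exact g.1.2⟩, adj_min hc (hd g) g.2⟩
  have hτ : Continuous τ := by
    have h0 : Continuous fun g : aut c => (g.1.1 : Mat n) :=
      continuous_subtype_val.comp continuous_subtype_val
    exact Continuous.subtype_mk (Continuous.subtype_mk h0.matrix_transpose _) _
  have h1 : τ 1 = 1 := by
    apply Subtype.ext; apply Subtype.ext
    exact transpose_one
  have hpre : IsPreconnected (τ '' connectedComponent (1 : aut c)) :=
    isPreconnected_connectedComponent.image _ hτ.continuousOn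
  exact exists_of_pre hpre ⟨1, mem_connectedComponent, h1⟩ ⟨g.1, g.2, rfl⟩

theorem lie_of_path {c : Ten n} {X : Mat n} (hd : ∀ s : ℝ, (NormedSpace.exp (s • X)).det = 1)
    (hi : ∀ s : ℝ, Iso (NormedSpace.exp (s • X)) c c) : Lie (rho c) X := by
  intro t
  let γ : ℝ → aut c := fun s => ⟨⟨NormedSpace.exp (s • X), hd s⟩, hi s⟩
  have hγ : Continuous γ := by
    refine Continuous.subtype_mk (Continuous.subtype_mk ?_ _) _
    exact Vale.Agent.P092.H793.Re.continuous_exp.comp (continuous_id.smul continuous_const)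
  have h1 : γ 0 = 1 := by
    apply Subtype.ext; apply Subtype.ext
    show NormedSpace.exp ((0 : ℝ) • X) = 1
    rw [zero_smul, NormedSpace.exp_zero]
  exact exists_of_pre (isPreconnected_range hγ) ⟨0, h1⟩ (Set.mem_range_self t)

theorem lie_iso {c : Ten n} {X : Mat n} (h : Lie (rho c) X) (s : ℝ) :
    Iso (NormedSpace.exp (s • X)) c c := by
  obtain ⟨g, hg⟩ := h s
  rw [← hg]
  exact rho_iso g

theorem rho_sqrt {c : Ten n} (hc : Min c) (h : SLn n) (hp : h.1.PosDef)
    (hg : ∃ g, rho c g = h * h) : ∃ g, rho c g = h := by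
  obtain ⟨g, hg⟩ := hg
  have hT : h.1ᵀ = h.1 := by
    have := hp.isHermitian
    rwa [IsHermitian, conjTranspose_eq_transpose_of_trivial] at this
  obtain ⟨U, μ, h1, h2, hU⟩ := spec hT
  have hμ : ∀ i, 0 < μ i := by
    intro i
    have h3 : (Uᵀ * h.1 * U).PosDef := by
      have h4 := hp.conjTranspose_mul_mul_same (B := U) (fun x y hxy => by
        have := congrArg (fun z => Uᵀ *ᵥ z) hxy
        simpa only [mulVec_mulVec, h1, one_mulVec] using this)
      rwa [conjTranspose_eq_transpose_of_trivial] at h4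
    have h5 : Uᵀ * h.1 * U = diagonal μ := by
      rw [hU]
      calc Uᵀ * (U * diagonal μ * Uᵀ) * U = (Uᵀ * U) * diagonal μ * (Uᵀ * U) := by
            simp only [Matrix.mul_assoc]
        _ = _ := by rw [h1, Matrix.one_mul, Matrix.mul_one]
    rw [h5] at h3
    exact (posDef_diagonal_iff.1 h3) i
  let x : Fin n → ℝ := fun i => Real.log (μ i)
  let X : Mat n := U * diagonal x * Uᵀ
  have hX : Xᵀ = X := by
    simp only [X]
    rw [transpose_mul, transpose_mul, transpose_transpose, diagonal_transpose, Matrix.mul_assoc]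
  have hprod : ∏ i, μ i = 1 := by
    have h3 := h.2
    have h4 : h.1.det = U.det * (∏ i, μ i) * U.det := by
      conv_lhs => rw [hU]
      rw [det_mul, det_mul, det_diagonal, det_transpose]
    have h5 : U.det * U.det = 1 := by
      have := congrArg det h1
      rwa [det_mul, det_transpose, det_one] at this
    rw [h4] at h3
    linear_combination h3 - (∏ i, μ i) * h5
  have hsum : ∑ i, x i = 0 := by
    simp only [x]
    rw [← Real.log_prod (fun i _ => (hμ i).ne'), hprod, Real.log_one]
  have htr : X.trace = 0 := by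
    simp only [X]
    rw [Matrix.trace_mul_comm, ← Matrix.mul_assoc, h1, Matrix.one_mul, trace_diagonal, hsum]
  have hE := exp_spec h1 h2 x
  have hdet : ∀ s : ℝ, (NormedSpace.exp (s • X)).det = 1 := by
    intro s
    simp only [X]
    rw [hE s, det_mul, det_mul, det_diagonal, det_transpose, ← Real.exp_sum, ← Finset.mul_sum,
      hsum, mul_zero, Real.exp_zero, mul_one]
    have := congrArg det h1
    rwa [det_mul, det_transpose, det_one] at this
  have he1 : NormedSpace.exp ((1 : ℝ) • X) = h.1 := by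
    simp only [X]
    rw [hE 1]
    conv_rhs => rw [hU]
    congr 3
    funext i
    simp only [x]
    rw [one_mul, Real.exp_log (hμ i)]
  have he2 : NormedSpace.exp ((2 : ℝ) • X) = h.1 * h.1 := by
    have h3 : (2 : ℝ) • X = (1 : ℝ) • X + (1 : ℝ) • X := by rw [← add_smul]; norm_num
    rw [h3, Matrix.exp_add_of_commute _ _ (Commute.refl _), he1]
  have hi2 : Iso (NormedSpace.exp ((2 : ℝ) • X)) c c := by
    rw [he2]
    have h3 := rho_iso g
    rw [hg] at h3
    exact h3
  have hi : ∀ s : ℝ, Iso (NormedSpace.exp (s • X)) c c := by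
    intro s
    have h3 := symB c hc ((2 : ℝ) • X) (by rw [transpose_smul, hX])
      (by rw [trace_smul, htr, smul_zero]) hi2 (s / 2)
    rw [smul_smul] at h3
    have h4 : s / 2 * 2 = s := by ring
    rwa [h4] at h3
  obtain ⟨g', hg'⟩ := lie_of_path hdet hi 1
  exact ⟨g', Subtype.ext (by rw [hg', he1])⟩

/-! ### (c) derivations -/

theorem hasDerivAt_br (c : Ten n) {u v : ℝ → Fin n → ℝ} {u' v' : Fin n → ℝ} {t : ℝ}
    (hu : HasDerivAt u u' t) (hv : HasDerivAt v v' t) :
    HasDerivAt (fun s => br c (u s) (v s)) (br c u' (v t) + br c (u t) v') t := by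
  rw [hasDerivAt_pi] at hu hv ⊢
  intro l
  have h1 : ∀ i j, HasDerivAt (fun s => c i j l * u s i * v s j)
      (c i j l * u' i * v t j + c i j l * u t i * v' j) t := by
    intro i j
    exact ((hu i).const_mul (c i j l)).mul (hv j)
  have h2 := HasDerivAt.fun_sum (u := Finset.univ) fun i _ =>
    HasDerivAt.fun_sum (u := Finset.univ) fun j _ => h1 i j
  refine h2.congr_deriv ?_
  simp only [br, Pi.add_apply, Finset.sum_add_distrib]

theorem hasDerivAt_mulVec {A : ℝ → Mat n} {A' : Mat n} {v : ℝ → Fin n → ℝ} {v' : Fin n → ℝ} {t : ℝ}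
    (hA : HasDerivAt A A' t) (hv : HasDerivAt v v' t) :
    HasDerivAt (fun s => A s *ᵥ v s) (A' *ᵥ v t + A t *ᵥ v') t := by
  have hA1 : ∀ l i, HasDerivAt (fun s => A s l i) (A' l i) t := by
    intro l i
    have hL : Continuous (fun M : Mat n => M l i) := by fun_prop
    let L : Mat n →ₗ[ℝ] ℝ := { toFun := fun M => M l i, map_add' := fun _ _ => rfl,
                               map_smul' := fun _ _ => rfl }
    let L' : Mat n →L[ℝ] ℝ := ⟨L, hL⟩
    exact L'.hasFDerivAt.comp_hasDerivAt t hA
  rw [hasDerivAt_pi] at hv ⊢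
  intro l
  have h2 := HasDerivAt.fun_sum (u := Finset.univ) fun i _ => (hA1 l i).mul (hv i)
  refine h2.congr_deriv ?_
  simp only [mulVec, dotProduct, Pi.add_apply, Finset.sum_add_distrib]

theorem hasDerivAt_expX (X : Mat n) (t : ℝ) :
    HasDerivAt (fun s : ℝ => NormedSpace.exp (s • X)) (X * NormedSpace.exp (t • X)) t :=
  hasDerivAt_exp_smul_const' (𝕂 := ℝ) X t

theorem iso_of_der {c : Ten n} {X : Mat n} (h : Der c X) (s : ℝ) :
    Iso (NormedSpace.exp (s • X)) c c := by
  intro x y
  let E : ℝ → Mat n := fun t => NormedSpace.exp (t • X)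
  let F : ℝ → Fin n → ℝ := fun t => E (-t) *ᵥ br c (E t *ᵥ x) (E t *ᵥ y)
  have hE : ∀ t, HasDerivAt E (X * E t) t := fun t => hasDerivAt_expX X t
  have hEx : ∀ t (x : Fin n → ℝ), HasDerivAt (fun t => E t *ᵥ x) (X *ᵥ (E t *ᵥ x)) t := by
    intro t x
    have := hasDerivAt_mulVec (hE t) (hasDerivAt_const t x)
    refine this.congr_deriv ?_
    rw [mulVec_zero, add_zero, mulVec_mulVec]
  have hEm : ∀ t, HasDerivAt (fun t => E (-t)) (-(E (-t) * X)) t := by
    intro t
    have h1 : HasDerivAt (fun s : ℝ => NormedSpace.exp (s • X)) (NormedSpace.exp ((-t) • X) * X) (-t) :=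
      hasDerivAt_exp_smul_const (𝕂 := ℝ) X (-t)
    have h2 := h1.scomp t (hasDerivAt_neg t)
    refine h2.congr_deriv ?_
    rw [neg_one_smul]
  have hF : ∀ t, HasDerivAt F 0 t := by
    intro t
    have h1 := hasDerivAt_mulVec (hEm t) (hasDerivAt_br c (hEx t x) (hEx t y))
    refine h1.congr_deriv ?_
    rw [← h, neg_mulVec, ← mulVec_mulVec]
    exact neg_add_cancel _
  have hconst : F s = F 0 := by
    have hd : Differentiable ℝ F := fun t => (hF t).differentiableAt
    exact is_const_of_deriv_eq_zero hd (fun t => (hF t).deriv) s 0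
  have h0 : F 0 = br c x y := by
    simp only [F, E]
    rw [neg_zero, zero_smul, NormedSpace.exp_zero, one_mulVec, one_mulVec, one_mulVec]
  have h1 : E s * E (-s) = 1 := by
    simp only [E]
    rw [neg_smul, ← Matrix.exp_add_of_commute (s • X) (-(s • X)) (Commute.refl (s • X)).neg_right,
      add_neg_cancel, NormedSpace.exp_zero]
  have h2 := congrArg (fun z => E s *ᵥ z) (hconst.trans h0)
  simp only [F] at h2
  rw [mulVec_mulVec, h1, one_mulVec] at h2
  exact h2.symm

theorem der_of_iso {c : Ten n} {X : Mat n} (h : ∀ s : ℝ, Iso (NormedSpace.exp (s • X)) c c) :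
    Der c X := by
  intro x y
  let E : ℝ → Mat n := fun t => NormedSpace.exp (t • X)
  have hE0 : E 0 = 1 := by simp only [E]; rw [zero_smul, NormedSpace.exp_zero]
  have hEx : ∀ (x : Fin n → ℝ), HasDerivAt (fun t => E t *ᵥ x) (X *ᵥ x) 0 := by
    intro x
    have := hasDerivAt_mulVec (hasDerivAt_expX X 0) (hasDerivAt_const 0 x)
    refine this.congr_deriv ?_
    rw [mulVec_zero, add_zero, zero_smul, NormedSpace.exp_zero, mul_one]
  have h1 := hEx (br c x y)
  have h2 := hasDerivAt_br c (hEx x) (hEx y)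
  have h3 : (fun t => E t *ᵥ br c x y) = fun t => br c (E t *ᵥ x) (E t *ᵥ y) := by
    funext t; exact h t x y
  rw [h3] at h1
  have h4 := h1.unique h2
  rw [hE0, one_mulVec, one_mulVec] at h4
  exact h4

/-- automorphisms preserve the Killing form: determinant `±1` -/
theorem det_sq {c : Ten n} (hN : Nd c) {g gi : Mat n} (hg : Iso g c c) (h1 : gi * g = 1) :
    g.det * g.det = 1 := by
  have h2 : g * gi = 1 := mul_eq_one_comm.mp h1
  have hadm : ∀ x, adm c (g *ᵥ x) = g * adm c x * gi := by
    intro x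
    apply Vale.Agent.P092.H381.Ad.ext_mulVec
    intro y
    rw [Vale.Agent.P092.H381.Ad.adm_mulVec, ← mulVec_mulVec, ← mulVec_mulVec,
      Vale.Agent.P092.H381.Ad.adm_mulVec, hg, mulVec_mulVec, h2, one_mulVec]
  have hk : gᵀ * kil c * g = kil c := by
    apply Matrix.ext
    intro i j
    have h3 : (gᵀ * kil c * g) i j =
        (g *ᵥ Pi.single i 1) ⬝ᵥ (kil c *ᵥ (g *ᵥ Pi.single j 1)) := by
      rw [mulVec_mulVec, mulVec_single_one, mulVec_single_one]
      rw [Matrix.mul_assoc, Matrix.mul_apply]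
      simp only [dotProduct, Matrix.col_apply, transpose_apply]
    have h4 : kil c i j = (Pi.single i 1) ⬝ᵥ (kil c *ᵥ (Pi.single j 1)) := by
      rw [mulVec_single_one, single_one_dotProduct, Matrix.col_apply]
    rw [h3, h4, Vale.Agent.P092.H381.Ad.kil_apply, Vale.Agent.P092.H381.Ad.kil_apply, hadm, hadm]
    calc (g * adm c (Pi.single i 1) * gi * (g * adm c (Pi.single j 1) * gi)).trace
        = (g * (adm c (Pi.single i 1) * (gi * g) * adm c (Pi.single j 1)) * gi).trace := by
          simp only [Matrix.mul_assoc]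
      _ = (gi * g * (adm c (Pi.single i 1) * (gi * g) * adm c (Pi.single j 1))).trace := by
          rw [Matrix.trace_mul_comm, ← Matrix.mul_assoc]
      _ = _ := by rw [h1, Matrix.one_mul, Matrix.mul_one]
  have h3 := congrArg det hk
  rw [det_mul, det_mul, det_transpose] at h3
  have h4 : (kil c).det ≠ 0 := hN
  apply mul_right_cancel₀ h4
  linear_combination h3

theorem det_exp_of_der {c : Ten n} (hN : Nd c) {X : Mat n} (h : Der c X) (s : ℝ) :
    (NormedSpace.exp (s • X)).det = 1 := by
  have h1 : s • X = (s / 2) • X + (s / 2) • X := by rw [← add_smul]; congr 1; ring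
  rw [h1, Matrix.exp_add_of_commute _ _ (Commute.refl _), det_mul]
  have h2 : NormedSpace.exp (-((s / 2) • X)) * NormedSpace.exp ((s / 2) • X) = 1 := by
    rw [← Matrix.exp_add_of_commute (-((s / 2) • X)) ((s / 2) • X)
      (Commute.refl ((s / 2) • X)).neg_left, neg_add_cancel, NormedSpace.exp_zero]
  exact det_sq hN (iso_of_der h (s / 2)) h2

/-- **the Lie algebra of `Aut0 c` consists of the derivations of `c`** -/
theorem lie_iff_der {c : Ten n} (hN : Nd c) {X : Mat n} : Lie (rho c) X ↔ Der c X :=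
  ⟨fun h => der_of_iso (lie_iso h), fun h => lie_of_path (det_exp_of_der hN h) (iso_of_der h)⟩

theorem der_adm {c : Ten n} (hc : IsLie c) (x : Fin n → ℝ) : Der c (adm c x) := by
  intro y z
  rw [Vale.Agent.P092.H381.Ad.adm_mulVec, Vale.Agent.P092.H381.Ad.adm_mulVec,
    Vale.Agent.P092.H381.Ad.adm_mulVec]
  exact hc.jac x y z

theorem adm_der {c : Ten n} {X : Mat n} (h : Der c X) (x : Fin n → ℝ) :
    adm c (X *ᵥ x) = X * adm c x - adm c x * X := by
  apply Vale.Agent.P092.H381.Ad.ext_mulVec
  intro y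
  rw [Matrix.sub_mulVec, ← mulVec_mulVec, ← mulVec_mulVec]
  simp only [Vale.Agent.P092.H381.Ad.adm_mulVec]
  rw [h, add_sub_cancel_right]

/-- **derivations are inner** -/
theorem der_inner {c : Ten n} (hc : IsLie c) (hN : Nd c) {X : Mat n} (h : Der c X) :
    ∃ z, X = adm c z := by
  have hu : IsUnit (kil c).det := isUnit_iff_ne_zero.2 hN
  let f : Fin n → ℝ := fun j => (X * adm c (Pi.single j 1)).trace
  let z : Fin n → ℝ := f ᵥ* (kil c)⁻¹
  have hz : ∀ y, z ⬝ᵥ (kil c *ᵥ y) = (X * adm c y).trace := by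
    intro y
    rw [dotProduct_mulVec]
    have : z ᵥ* kil c = f := by
      simp only [z]
      rw [vecMul_vecMul, nonsing_inv_mul _ hu, vecMul_one]
    rw [this]
    conv_rhs => rw [← Vale.Agent.P092.H381.Ad.sum_single y]
    have h3 : (adm c (∑ i, y i • (Pi.single i (1:ℝ) : Fin n → ℝ))) =
        ∑ i, y i • adm c (Pi.single i 1) := by
      have := map_sum (Vale.Agent.P092.H381.Ad.admL c)
        (fun i => y i • (Pi.single i (1:ℝ) : Fin n → ℝ)) Finset.univ
      simp only [map_smul] at this
      exact this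
    rw [h3, Matrix.mul_sum, Matrix.trace_sum]
    simp only [dotProduct, f, Matrix.mul_smul, trace_smul, smul_eq_mul]
    exact Finset.sum_congr rfl fun i _ => mul_comm _ _
  refine ⟨z, ?_⟩
  have hD : Der c (X - adm c z) := by
    intro x y
    rw [Matrix.sub_mulVec, Matrix.sub_mulVec, Matrix.sub_mulVec, h, der_adm hc z]
    rw [← Vale.Agent.P092.H381.Ad.brL_apply, ← Vale.Agent.P092.H381.Ad.brL_apply,
      ← Vale.Agent.P092.H381.Ad.brL_apply, ← Vale.Agent.P092.H381.Ad.brL_apply,
      ← Vale.Agent.P092.H381.Ad.brL_apply, ← Vale.Agent.P092.H381.Ad.brL_apply]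
    simp only [map_sub, LinearMap.sub_apply]
    abel
  have h0 : ∀ y, ((X - adm c z) * adm c y).trace = 0 := by
    intro y
    rw [Matrix.sub_mul, trace_sub, ← hz, Vale.Agent.P092.H381.Ad.kil_apply, sub_self]
  have h1 : ∀ x, (X - adm c z) *ᵥ x = 0 := by
    intro x
    have h2 : ∀ y, ((X - adm c z) *ᵥ x) ⬝ᵥ (kil c *ᵥ y) = 0 := by
      intro y
      rw [Vale.Agent.P092.H381.Ad.kil_apply, adm_der hD]
      have h3 := h0 (br c x y)
      rw [Vale.Agent.P092.H381.Ad.adm_lie hc, Matrix.mul_sub, trace_sub] at h3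
      rw [Matrix.sub_mul, trace_sub]
      have h4 : (adm c x * (X - adm c z) * adm c y).trace =
          ((X - adm c z) * (adm c y * adm c x)).trace := by
        rw [Matrix.mul_assoc, Matrix.trace_mul_comm, Matrix.mul_assoc]
      rw [h4, Matrix.mul_assoc]
      exact h3
    have h3 : (X - adm c z) *ᵥ x = 0 := by
      have h4 : ((X - adm c z) *ᵥ x) ᵥ* kil c = 0 := by
        funext j
        have := h2 (Pi.single j 1)
        rw [dotProduct_mulVec, dotProduct_single_one] at this
        exact this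
      have h5 := congrArg (fun v => v ᵥ* (kil c)⁻¹) h4
      simp only [vecMul_vecMul, zero_vecMul] at h5
      rwa [mul_nonsing_inv _ hu, vecMul_one] at h5
    exact h3
  have h2 : X - adm c z = 0 := by
    apply Vale.Agent.P092.H381.Ad.ext_mulVec
    intro x
    rw [h1, zero_mulVec]
  exact sub_eq_zero.1 h2

/-- **the Lie algebra of `Aut0 c` is `ad`** -/
theorem lie_iff_adm {c : Ten n} (hc : IsLie c) (hN : Nd c) {X : Mat n} :
    Lie (rho c) X ↔ ∃ z, X = adm c z := by
  rw [lie_iff_der hN]
  exact ⟨der_inner hc hN, fun ⟨z, hz⟩ => hz ▸ der_adm hc z⟩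

end Vale.Agent.P092.H338.Ad
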