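import Vale.Agent.P092.H259.Ad.LieA
import Vale.Agent.P092.H736.ReLog
import Vale.Agent.P092.H35.Rp.Bas
import Vale.Agent.P092.H338.Ad5
import Mathlib.Topology.Algebra.ContinuousMonoidHom
import Mathlib.GroupTheory.Index

/-!
P092, project RE-ADJ, block [AD-9] (helper338): a group of automorphisms of a simple real bracket which
contains the exponentials of the ad-nilpotent elements contains the identity component as an open
normal subgroup of finite index.
-/

set_option linter.all false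

open Matrix Filter Topology

namespace Vale.Agent.P092.H338.Ov

open Vale.Agent.P092.H793.Re (Mat SLn RS Lie)
open Vale.Agent.P092.H259.Ad

attribute [local instance] Matrix.linftyOpNormedRing Matrix.linftyOpNormedAlgebra

variable {n : ℕ} {c : Ten n}

theorem rho_mul (a b : Aut0 c) : (rho c (a * b)).1 = (rho c a).1 * (rho c b).1 := by
  rw [map_mul]; rfl

theorem rho_one : (rho c 1).1 = 1 := by
  rw [map_one]; rfl

theorem rho_inv_mul (a : Aut0 c) : (rho c a⁻¹).1 * (rho c a).1 = 1 := by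
  rw [← rho_mul, inv_mul_cancel, rho_one]

theorem rho_mul_inv (a : Aut0 c) : (rho c a).1 * (rho c a⁻¹).1 = 1 := by
  rw [← rho_mul, mul_inv_cancel, rho_one]

theorem rho_inj {a b : Aut0 c} (h : (rho c a).1 = (rho c b).1) : a = b :=
  (isClosedEmbedding_rho c).injective (Subtype.ext h)

/-- automorphisms near `1` are in the identity component -/
theorem near (hn : Nd c) : ∃ V ∈ 𝓝 (1 : Mat n), ∀ g ∈ V, Iso g c c → g.det ^ 2 = 1 →
    ∃ a : Aut0 c, (rho c a).1 = g := by
  let ι : aut c →* SLn n := (aut c).subtype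
  have hι : IsClosedEmbedding ι := (isClosed_aut c).isClosedEmbedding_subtypeVal
  have hL : ∀ X, Lie ι X → Lie (rho c) X := by
    intro X h
    have hc : ∀ s : ℝ, (NormedSpace.exp (s • X)).det = 1 ∧ Iso (NormedSpace.exp (s • X)) c c := by
      intro s
      obtain ⟨g, hg⟩ := h s
      rw [← hg]
      exact ⟨g.1.2, g.2⟩
    exact H338.Ad.lie_of_path (fun s => (hc s).1) (fun s => (hc s).2)
  obtain ⟨V, hV, h⟩ := H736.Re.log_nhds hι (H793.Re.lieS hι) (fun X => H793.Re.mem_lieS)
    (U := Set.univ) univ_mem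
  have hdet : {g : Mat n | 0 < g.det} ∈ 𝓝 (1 : Mat n) := by
    refine IsOpen.mem_nhds (isOpen_lt continuous_const (Continuous.matrix_det continuous_id)) ?_
    show 0 < (1 : Mat n).det
    rw [det_one]; exact one_pos
  refine ⟨V ∩ {g | 0 < g.det}, inter_mem hV hdet, ?_⟩
  rintro g ⟨hgV, hg0⟩ hi hd
  have hg0' : 0 < g.det := hg0
  have hd1 : g.det = 1 := by nlinarith
  obtain ⟨X, -, hX, hX'⟩ := h ⟨⟨g, hd1⟩, hi⟩ hgV
  obtain ⟨a, ha⟩ := hL X hX 1
  refine ⟨a, ?_⟩
  rw [ha, one_smul]
  exact hX'.symm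

/-- the identity component is normalised by all automorphisms -/
theorem conj_mem {g gi : Mat n} (h1 : g * gi = 1) (hg : Iso g c c) (a : Aut0 c) :
    ∃ b : Aut0 c, (rho c b).1 = g * (rho c a).1 * gi := by
  have h2 : gi * g = 1 := mul_eq_one_comm.1 h1
  have hdet : ∀ x : Mat n, (g * x * gi).det = x.det := by
    intro x
    have h3 : g.det * gi.det = 1 := by rw [← det_mul, h1, det_one]
    rw [det_mul, det_mul]
    linear_combination x.det * h3
  let τ : aut c → aut c := fun x =>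
    ⟨⟨g * x.1.1 * gi, by rw [hdet]; exact x.1.2⟩,
      by
        have := ((hg.inv h1).comp x.2).comp hg
        rw [← mul_assoc] at this
        exact this⟩
  have hτ : Continuous τ := by
    have h0 : Continuous fun x : aut c => (x.1.1 : Mat n) :=
      continuous_subtype_val.comp continuous_subtype_val
    exact Continuous.subtype_mk (Continuous.subtype_mk
      ((continuous_const.mul h0).mul continuous_const) _) _
  have h3 : τ 1 = 1 := by
    apply Subtype.ext; apply Subtype.ext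
    show g * 1 * gi = 1
    rw [mul_one, h1]
  have hpre : IsPreconnected (τ '' connectedComponent (1 : aut c)) :=
    isPreconnected_connectedComponent.image _ hτ.continuousOn
  exact H338.Ad.exists_of_pre hpre ⟨1, mem_connectedComponent, h3⟩ ⟨a.1, a.2, rfl⟩

/-- the exponential of a nilpotent matrix -/
theorem exp_nil {X : Mat n} {k : ℕ} (h : X ^ k = 0) :
    NormedSpace.exp X = ∑ i ∈ Finset.range k, ((i.factorial : ℝ)⁻¹) • X ^ i := by
  rw [NormedSpace.exp_eq_tsum ℝ]
  exact tsum_eq_sum fun i hi => by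
    rw [pow_eq_zero_of_le (by simpa using hi) h, smul_zero]

theorem not_compact (hn : Nd c) (hl : IsLie c) {x : Fin n → ℝ} (hx : x ≠ 0)
    (hnil : IsNilpotent (adm c x)) : ¬ CompactSpace (Aut0 c) := by
  intro hC
  set X := adm c x with hX
  have hX0 : X ≠ 0 := fun h => hx (eq_zero_of_kil hn h)
  obtain ⟨p, hp1, hp2⟩ : ∃ p : ℕ, X ^ (p + 1) ≠ 0 ∧ X ^ (p + 2) = 0 := by
    have hex : ∃ k, X ^ k = 0 := hnil
    classical
    have h1 := Nat.find_spec hex
    have h2 : ∀ m < Nat.find hex, X ^ m ≠ 0 := fun m hm => Nat.find_min hex hm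
    rcases hk : Nat.find hex with _ | _ | p
    · rw [hk, pow_zero] at h1
      exact absurd (by rw [← one_mul X, h1, zero_mul]) hX0
    · rw [hk, zero_add, pow_one] at h1
      exact absurd h1 hX0
    · rw [hk] at h1
      exact ⟨p, h2 (p + 1) (by rw [hk]; omega), h1⟩
  have hcont : Continuous fun a : Aut0 c => (rho c a).1 :=
    continuous_subtype_val.comp (isClosedEmbedding_rho c).continuous
  obtain ⟨C, hCb⟩ := (isCompact_range hcont).isBounded.exists_norm_le
  have key : ∀ t : ℝ, NormedSpace.exp (t • X) * X ^ p = X ^ p + t • X ^ (p + 1) := by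
    intro t
    have h1 : (t • X) ^ (p + 2) = 0 := by rw [smul_pow, hp2, smul_zero]
    rw [exp_nil h1, Finset.sum_mul, Finset.sum_range_succ', Finset.sum_range_succ']
    have h2 : ∀ i ∈ Finset.range p,
        (((i + 1 + 1).factorial : ℝ)⁻¹) • (t • X) ^ (i + 1 + 1) * X ^ p = 0 := by
      intro i _
      rw [smul_mul_assoc, smul_pow, smul_mul_assoc, ← pow_add,
        pow_eq_zero_of_le (by omega) hp2, smul_zero, smul_zero]
    rw [Finset.sum_eq_zero h2]
    simp only [zero_add, Nat.factorial_one, Nat.cast_one, inv_one, one_smul, pow_one,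
      Nat.factorial_zero, pow_zero, one_mul, smul_mul_assoc]
    rw [← pow_succ', add_comm]
  have hb : ∀ t : ℝ, ‖t • X ^ (p + 1)‖ ≤ (C + 1) * ‖X ^ p‖ := by
    intro t
    obtain ⟨a, ha⟩ := lie_of_der hn (der_adm hl x) t
    have h1 : ‖NormedSpace.exp (t • X)‖ ≤ C := by
      rw [hX, ← ha]; exact hCb _ ⟨a, rfl⟩
    have h2 : t • X ^ (p + 1) = NormedSpace.exp (t • X) * X ^ p - X ^ p := by
      rw [key]; abel
    rw [h2]
    calc ‖NormedSpace.exp (t • X) * X ^ p - X ^ p‖ ≤ ‖NormedSpace.exp (t • X) * X ^ p‖ + ‖X ^ p‖ :=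
          norm_sub_le _ _
      _ ≤ ‖NormedSpace.exp (t • X)‖ * ‖X ^ p‖ + ‖X ^ p‖ := by
          gcongr; exact norm_mul_le _ _
      _ ≤ C * ‖X ^ p‖ + ‖X ^ p‖ := by gcongr
      _ = _ := by ring
  have hpos : 0 < ‖X ^ (p + 1)‖ := norm_pos_iff.2 hp1
  have h3 := hb (((C + 1) * ‖X ^ p‖ + 1) / ‖X ^ (p + 1)‖)
  rw [norm_smul, Real.norm_eq_abs] at h3
  have h4 : ((C + 1) * ‖X ^ p‖ + 1) ≤ |((C + 1) * ‖X ^ p‖ + 1) / ‖X ^ (p + 1)‖| * ‖X ^ (p + 1)‖ := by
    calc ((C + 1) * ‖X ^ p‖ + 1) = ((C + 1) * ‖X ^ p‖ + 1) / ‖X ^ (p + 1)‖ * ‖X ^ (p + 1)‖ := by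
          field_simp
      _ ≤ _ := by gcongr; exact le_abs_self _
  linarith

section grp

variable {G : Type} [Group G] (γ : G →* Mat n)

theorem inv_mul' (g : G) : γ g⁻¹ * γ g = 1 := by rw [← map_mul, inv_mul_cancel, map_one]

theorem mul_inv' (g : G) : γ g * γ g⁻¹ = 1 := by rw [← map_mul, mul_inv_cancel, map_one]

variable (c)

/-- the elements of `G` in the identity component -/
def MM : Subgroup G where
  carrier := {g | ∃ a : Aut0 c, (rho c a).1 = γ g}
  mul_mem' := by
    rintro g h ⟨a, ha⟩ ⟨b, hb⟩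
    exact ⟨a * b, by rw [rho_mul, ha, hb, map_mul]⟩
  one_mem' := ⟨1, by rw [rho_one, map_one]⟩
  inv_mem' := by
    rintro g ⟨a, ha⟩
    refine ⟨a⁻¹, ?_⟩
    have h1 := rho_inv_mul a
    rw [ha] at h1
    calc (rho c a⁻¹).1 = (rho c a⁻¹).1 * (γ g * γ g⁻¹) := by rw [mul_inv', mul_one]
      _ = γ g⁻¹ := by rw [← mul_assoc, h1, one_mul]

variable {c γ}

theorem MM_normal (hi : ∀ g, Iso (γ g) c c) : (MM c γ).Normal := by
  constructor
  rintro m ⟨a, ha⟩ g
  obtain ⟨b, hb⟩ := conj_mem (mul_inv' γ g) (hi g) a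
  refine ⟨b, ?_⟩
  rw [hb, ha, map_mul, map_mul]

/-- `G` contains the identity component -/
theorem full (hs : Simp c) (hR : ∀ N : Subgroup (Aut0 c), N.Normal → N ≤ Subgroup.center _ ∨ N = ⊤)
    {x₀ : Fin n → ℝ} (hx₀ : x₀ ≠ 0) (hnil : IsNilpotent (adm c x₀))
    (hf : ∀ x, IsNilpotent (adm c x) → ∃ g, γ g = NormedSpace.exp (adm c x)) (a : Aut0 c) :
    ∃ g, γ g = (rho c a).1 := by
  let T : Set (Aut0 c) := {a | ∃ x, IsNilpotent (adm c x) ∧ (rho c a).1 = NormedSpace.exp (adm c x)}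
  let N : Subgroup (Aut0 c) := Subgroup.closure T
  have hN : N.Normal := by
    constructor
    intro a ha b
    induction ha using Subgroup.closure_induction with
    | mem a ha =>
      obtain ⟨x, hx, hax⟩ := ha
      refine Subgroup.subset_closure ⟨(rho c b).1 *ᵥ x, ?_, ?_⟩
      · rw [adm_conj (iso_rho b) (rho_mul_inv b)]
        obtain ⟨k, hk⟩ := hx
        refine ⟨k, ?_⟩
        have h1 : ∀ m : ℕ, ((rho c b).1 * adm c x * (rho c b⁻¹).1) ^ m =
            (rho c b).1 * adm c x ^ m * (rho c b⁻¹).1 := by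
          intro m
          induction m with
          | zero => rw [pow_zero, pow_zero, mul_one, rho_mul_inv]
          | succ m ih =>
            rw [pow_succ, ih, pow_succ]
            calc (rho c b).1 * adm c x ^ m * (rho c b⁻¹).1 *
                  ((rho c b).1 * adm c x * (rho c b⁻¹).1) =
                (rho c b).1 * adm c x ^ m * ((rho c b⁻¹).1 * (rho c b).1) * adm c x *
                  (rho c b⁻¹).1 := by simp only [mul_assoc]
              _ = _ := by rw [rho_inv_mul, mul_one, mul_assoc (rho c b).1]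
        rw [h1, hk, mul_zero, zero_mul]
      · rw [rho_mul, rho_mul, hax, adm_conj (iso_rho b) (rho_mul_inv b)]
        have hu : IsUnit (rho c b).1 := ⟨⟨_, _, rho_mul_inv b, rho_inv_mul b⟩, rfl⟩
        have hinv : (rho c b).1⁻¹ = (rho c b⁻¹).1 := inv_eq_left_inv (rho_inv_mul b)
        rw [← hinv, Matrix.exp_conj _ _ hu]
    | one => simp only [mul_one, mul_inv_cancel]; exact Subgroup.one_mem _
    | mul a a' _ _ h1 h2 =>
      have : b * (a * a') * b⁻¹ = (b * a * b⁻¹) * (b * a' * b⁻¹) := by group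
      rw [this]
      exact Subgroup.mul_mem _ h1 h2
    | inv a _ h1 =>
      have : b * a⁻¹ * b⁻¹ = (b * a * b⁻¹)⁻¹ := by group
      rw [this]
      exact Subgroup.inv_mem _ h1
  have hT : ∀ t : ℝ, ∃ a ∈ N, (rho c a).1 = NormedSpace.exp (t • adm c x₀) := by
    intro t
    obtain ⟨a, ha⟩ := lie_of_der hs.nd (der_adm hs.lie x₀) t
    refine ⟨a, Subgroup.subset_closure ⟨t • x₀, ?_, ?_⟩, ha⟩
    · rw [adm_smul]
      exact hnil.smul t
    · rw [adm_smul, ha]
  rcases hR N hN with h | h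
  · exfalso
    apply hx₀
    apply eq_zero_of_kil hs.nd
    refine ext_mulVec fun y => ?_
    rw [zero_mulVec, adm_mulVec]
    apply eq_zero_of_kil hs.nd
    rw [adm_br hs.lie, sub_eq_zero]
    refine H793.Re.comm_of_exp fun t => ?_
    refine (H793.Re.comm_of_exp fun s => ?_).symm
    obtain ⟨g, hgN, hg⟩ := hT t
    obtain ⟨k, hk⟩ := lie_of_der hs.nd (der_adm hs.lie y) s
    rw [← hg, ← hk]
    have h1 := Subgroup.mem_center_iff.1 (h hgN) k
    rw [← rho_mul, ← rho_mul, h1]
  · have ha : a ∈ Subgroup.closure T := by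
      show a ∈ N
      rw [h]; trivial
    induction ha using Subgroup.closure_induction with
    | mem a ha =>
      obtain ⟨x, hx, hax⟩ := ha
      obtain ⟨g, hg⟩ := hf x hx
      exact ⟨g, by rw [hg, hax]⟩
    | one => exact ⟨1, by rw [map_one, rho_one]⟩
    | mul a a' _ _ h1 h2 =>
      obtain ⟨g, hg⟩ := h1
      obtain ⟨g', hg'⟩ := h2
      exact ⟨g * g', by rw [map_mul, rho_mul, hg, hg']⟩
    | inv a _ h1 =>
      obtain ⟨g, hg⟩ := h1
      refine ⟨g⁻¹, ?_⟩
      have h2 := rho_inv_mul a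
      rw [← hg] at h2
      calc γ g⁻¹ = (rho c a⁻¹).1 * γ g * γ g⁻¹ := by rw [h2, one_mul]
        _ = _ := by rw [mul_assoc, mul_inv', mul_one]

theorem fin_idx (hm : Min c) (hn : Nd c) (hi : ∀ g, Iso (γ g) c c)
    (hfull : ∀ a : Aut0 c, ∃ g, γ g = (rho c a).1) : (MM c γ).FiniteIndex := by
  classical
  obtain ⟨V, hV, hVn⟩ := near hn
  have hdsq : ∀ g gi : Mat n, g * gi = 1 → Iso g c c → g.det ^ 2 = 1 := fun g gi h hg =>
    det_sq hn hg h
  let K : Set (Mat n) := {k | kᵀ * k = 1 ∧ Iso k c c}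
  have hKc : IsCompact K := by
    have h1 : IsCompact {k : Mat n | ∀ i j, |k i j| ≤ 1} := by
      have h2 : {k : Mat n | ∀ i j, |k i j| ≤ 1} =
          Set.pi Set.univ fun _ => Set.pi Set.univ fun _ => Set.Icc (-1 : ℝ) 1 := by
        ext k
        simp only [Set.mem_setOf_eq, abs_le]
        constructor
        · intro h i _ j _
          exact h i j
        · intro h i j
          exact h i trivial j trivial
      rw [h2]
      exact isCompact_univ_pi fun _ => isCompact_univ_pi fun _ => isCompact_Icc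
    refine h1.of_isClosed_subset ?_ ?_
    · refine IsClosed.inter ?_ (H338.Ad.isClosed_iso c c)
      exact isClosed_eq (Continuous.matrix_mul (Continuous.matrix_transpose continuous_id)
        continuous_id) continuous_const
    · rintro k ⟨hk, -⟩ i j
      have h2 : ∑ a, k a j * k a j = 1 := by
        have := congrFun (congrFun hk j) j
        rw [Matrix.mul_apply, one_apply_eq] at this
        exact this
      have h3 : k i j * k i j ≤ 1 := by
        rw [← h2]
        exact Finset.single_le_sum (f := fun a => k a j * k a j) (fun a _ => mul_self_nonneg _)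
          (Finset.mem_univ i)
      exact abs_le_one_iff_mul_self_le_one.2 h3
  have hrep : ∀ q : G ⧸ MM c γ, ∃ g : G, (QuotientGroup.mk g : G ⧸ MM c γ) = q ∧ γ g ∈ K := by
    intro q
    obtain ⟨g, rfl⟩ := QuotientGroup.mk_surjective q
    have h1 := hdsq _ _ (mul_inv' γ g) (hi g)
    have h2 : |(γ g).det| = 1 := by
      rw [← abs_one]
      exact (sq_eq_sq_iff_abs_eq_abs _ _).1 (by rw [h1, one_pow])
    obtain ⟨k, X, hk, hk', hX, htr, hg, hik, -, hXs⟩ := H338.Ad.polar_min hm h2 (hi g)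
    obtain ⟨a, ha⟩ := lie_of_der hn (H338.Ad.der_of_iso hXs) 1
    rw [one_smul] at ha
    obtain ⟨g', hg'⟩ := hfull a
    refine ⟨g * g'⁻¹, ?_, ?_⟩
    · rw [QuotientGroup.eq]
      have : (g * g'⁻¹)⁻¹ * g = g' := by group
      rw [this]
      exact ⟨a, hg'.symm⟩
    · have h3 : γ (g * g'⁻¹) = k := by
        rw [map_mul, hg, ← ha, ← hg', mul_assoc, mul_inv', mul_one]
      rw [h3]
      exact ⟨hk, hik⟩
  choose r hr hrK using hrep
  obtain ⟨t, htK, htc⟩ := hKc.elim_nhds_subcover (fun k => {k' | kᵀ * k' ∈ V}) (by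
    rintro k ⟨hk, -⟩
    have h1 : Continuous fun k' : Mat n => kᵀ * k' := continuous_const.mul continuous_id
    have h2 : V ∈ 𝓝 (kᵀ * k) := by rw [hk]; exact hV
    exact h1.continuousAt h2)
  have hidx : ∀ q : G ⧸ MM c γ, ∃ k : t, k.1ᵀ * γ (r q) ∈ V := by
    intro q
    have h1 := htc (hrK q)
    rw [Set.mem_iUnion₂] at h1
    obtain ⟨k, hk, h2⟩ := h1
    exact ⟨⟨k, hk⟩, h2⟩
  choose f hfV using hidx
  have hfin : Finite (G ⧸ MM c γ) := by
    refine Finite.of_injective f ?_
    intro q q' hqq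
    have hk := htK _ (f q).2
    have hkT : Iso (f q).1ᵀ c c := hk.2.inv (mul_eq_one_comm.1 hk.1)
    have hmem : ∀ q, f q = f q' → ∃ a : Aut0 c, (rho c a).1 = (f q').1ᵀ * γ (r q) := by
      intro q hq
      have hkq := htK _ (f q').2
      have hkT : Iso (f q').1ᵀ c c := hkq.2.inv (mul_eq_one_comm.1 hkq.1)
      refine hVn _ (by rw [← hq]; exact hfV q) ((hi (r q)).comp hkT) ?_
      refine hdsq _ (γ (r q)⁻¹ * (f q').1) ?_ ((hi (r q)).comp hkT)
      calc (f q').1ᵀ * γ (r q) * (γ (r q)⁻¹ * (f q').1) =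
          (f q').1ᵀ * (γ (r q) * γ (r q)⁻¹) * (f q').1 := by simp only [mul_assoc]
        _ = 1 := by rw [mul_inv', mul_one, hkq.1]
    obtain ⟨a, ha⟩ := hmem q hqq
    obtain ⟨a', ha'⟩ := hmem q' rfl
    have hkq := htK _ (f q').2
    rw [← hr q, ← hr q', QuotientGroup.eq]
    refine ⟨a⁻¹ * a', ?_⟩
    have h1 : (rho c a⁻¹).1 = γ (r q)⁻¹ * (f q').1 := by
      have h2 : (rho c a).1 * (γ (r q)⁻¹ * (f q').1) = 1 := by
        rw [ha]
        calc (f q').1ᵀ * γ (r q) * (γ (r q)⁻¹ * (f q').1) =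
            (f q').1ᵀ * (γ (r q) * γ (r q)⁻¹) * (f q').1 := by simp only [mul_assoc]
          _ = 1 := by rw [mul_inv', mul_one, hkq.1]
      calc (rho c a⁻¹).1 = (rho c a⁻¹).1 * ((rho c a).1 * (γ (r q)⁻¹ * (f q').1)) := by
            rw [h2, mul_one]
        _ = _ := by rw [← mul_assoc, rho_inv_mul, one_mul]
    rw [rho_mul, h1, ha', map_mul]
    calc γ (r q)⁻¹ * (f q').1 * ((f q').1ᵀ * γ (r q')) =
        γ (r q)⁻¹ * ((f q').1 * (f q').1ᵀ) * γ (r q') := by simp only [mul_assoc]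
      _ = _ := by rw [mul_eq_one_comm.1 hkq.1, mul_one]
  exact Subgroup.finiteIndex_of_finite_quotient

end grp

section top

variable {G : Type} [Group G] [TopologicalSpace G] {γ : G →* Mat n}

theorem MM_open (hn : Nd c) (he : IsEmbedding γ) (hi : ∀ g, Iso (γ g) c c) :
    IsOpen (MM c γ : Set G) := by
  haveI : IsTopologicalGroup G := H35.Rp.topGroup he
  obtain ⟨V, hV, hVn⟩ := near hn
  refine Subgroup.isOpen_of_mem_nhds _ (g := 1) ?_
  have h1 : γ ⁻¹' V ∈ 𝓝 (1 : G) := he.continuous.continuousAt (by rw [map_one]; exact hV)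
  refine mem_of_superset h1 fun g hg => ?_
  exact hVn _ hg (hi g) (det_sq hn (hi g) (mul_inv' γ g))

/-- the identity component, seen in `G` -/
theorem MM_iso (he : IsEmbedding γ) (hfull : ∀ a : Aut0 c, ∃ g, γ g = (rho c a).1) :
    Nonempty (MM c γ ≃ₜ* Aut0 c) := by
  have h1 : ∀ m : MM c γ, ∃ a : Aut0 c, (rho c a).1 = γ m.1 := fun m => m.2
  choose f hf using h1
  choose h hh using hfull
  have hmem : ∀ a, h a ∈ MM c γ := fun a => ⟨a, (hh a).symm⟩
  have hemb : IsEmbedding fun a : Aut0 c => (rho c a).1 :=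
    IsEmbedding.subtypeVal.comp (isClosedEmbedding_rho c).isEmbedding
  refine ⟨{ toFun := f, invFun := fun a => ⟨h a, hmem a⟩, left_inv := ?_, right_inv := ?_,
            map_mul' := ?_, continuous_toFun := ?_, continuous_invFun := ?_ }⟩
  · intro m
    apply Subtype.ext
    apply he.injective
    rw [hh, hf]
  · intro a
    apply rho_inj
    rw [hf, hh]
  · intro m m'
    apply rho_inj
    rw [hf, rho_mul, hf, hf, ← map_mul]
    rfl
  · rw [hemb.continuous_iff]
    have e : ((fun a : Aut0 c => (rho c a).1) ∘ f) = fun m : MM c γ => γ m.1 := by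
      funext m; exact hf m
    rw [e]
    exact he.continuous.comp continuous_subtype_val
  · rw [(he.comp IsEmbedding.subtypeVal).continuous_iff]
    have e : ((γ ∘ Subtype.val) ∘ fun a : Aut0 c => (⟨h a, hmem a⟩ : MM c γ)) =
        fun a => (rho c a).1 := by
      funext a; exact hh a
    rw [e]
    exact hemb.continuous

/-- **[AD-9], the core**: a group of automorphisms of a minimal simple bracket which contains the
exponentials of the ad-nilpotent elements. -/
theorem core (hB : SimB) (hs : Simp c) (hm : Min c) {x₀ : Fin n → ℝ} (hx₀ : x₀ ≠ 0)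
    (hnil : IsNilpotent (adm c x₀)) (he : IsEmbedding γ) (hi : ∀ g, Iso (γ g) c c)
    (hf : ∀ x, IsNilpotent (adm c x) → ∃ g, γ g = NormedSpace.exp (adm c x)) :
    RS (rho c) ∧ ∃ M : Subgroup G, M.Normal ∧ M.FiniteIndex ∧ IsOpen (M : Set G) ∧
      Nonempty (M ≃ₜ* Aut0 c) := by
  have hRS : RS (rho c) := rs_min hB hs hm (not_compact hs.nd hs.lie hx₀ hnil)
  have hfull := full hs hRS.simple hx₀ hnil hf
  exact ⟨hRS, MM c γ, MM_normal hi, fin_idx hm hs.nd hi hfull, MM_open hs.nd he hi,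
    MM_iso he hfull⟩

end top

end Vale.Agent.P092.H338.Ov
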