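import Vale.Agent.P092.H338.Ad9
import Vale.Agent.P092.H259.Ad.Final
import Vale.Agent.P092.H35.Rp.ClsQ

/-!
P092, project RE-ADJ, block [AD-9] (helper338), part 2: every group between `E(L)` and `Aut(L)`, `L` a
simple real Lie algebra with a nonzero ad-nilpotent element, has an open normal subgroup of finite
index with a self-adjoint realisation.
-/

set_option linter.all false

open Matrix Filter Topology Module

namespace Vale.Agent.P092.H338.Ov

open Vale.Agent.P092.H793.Re (Mat SLn RS Lie)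
open Vale.Agent.P092.H259.Ad
open Vale.Agent.P092.H213.Rp (Nil eu ex)
open Vale.Agent.P092.H35.Rp (RA ex_eq IsLie isLie_ra)

attribute [local instance] Matrix.linftyOpNormedRing Matrix.linftyOpNormedAlgebra

variable {n : ℕ} {L : Type} [LieRing L] [LieAlgebra ℝ L] {c : Ten n}
  {φ : L ≃ₗ[ℝ] (Fin n → ℝ)}

theorem adm_pow (h : Mod φ c) (x y : L) (i : ℕ) :
    adm c (φ x) ^ i *ᵥ φ y = φ (((LieAlgebra.ad ℝ L x) ^ i) y) := by
  induction i generalizing y with
  | zero => rw [pow_zero, pow_zero, one_mulVec]; rfl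
  | succ i ih =>
    rw [pow_succ, ← mulVec_mulVec, adm_mulVec, ← h, pow_succ]
    exact ih ⁅x, y⁆

theorem adm_pow_zero (h : Mod φ c) {x : L} {k : ℕ} :
    adm c (φ x) ^ k = 0 ↔ (LieAlgebra.ad ℝ L x) ^ k = 0 := by
  constructor
  · intro h1
    refine LinearMap.ext fun y => ?_
    apply φ.injective
    rw [← adm_pow h, h1, zero_mulVec]
    exact φ.map_zero.symm
  · intro h1
    refine ext_mulVec fun v => ?_
    rw [← φ.apply_symm_apply v, adm_pow h, h1, zero_mulVec]
    exact φ.map_zero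

theorem nil_iff (h : Mod φ c) {x : L} : IsNilpotent (adm c (φ x)) ↔ Nil ℝ x := by
  constructor
  · rintro ⟨k, hk⟩
    exact ⟨k, (adm_pow_zero h).1 hk⟩
  · rintro ⟨k, hk⟩
    exact ⟨k, (adm_pow_zero h).2 hk⟩

theorem exp_eu [FiniteDimensional ℝ L] (h : Mod φ c) {x : L} (hx : Nil ℝ x) (y : L) :
    NormedSpace.exp (adm c (φ x)) *ᵥ φ y = φ (eu ℝ x y) := by
  obtain ⟨k, hk⟩ := hx
  have h1 : adm c (φ x) ^ k = 0 := (adm_pow_zero h).2 hk
  have h2 : eu ℝ x = ∑ i ∈ Finset.range k, ((i.factorial : ℝ)⁻¹) • (LieAlgebra.ad ℝ L x) ^ i :=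
    ex_eq hk
  rw [exp_nil h1, h2, LinearMap.sum_apply, map_sum, sum_mulVec]
  refine Finset.sum_congr rfl fun i _ => ?_
  rw [smul_mulVec, adm_pow h, LinearMap.smul_apply, map_smul]

variable {G : Type} [Group G] [TopologicalSpace G]

/-- **[AD-9]** -/
theorem ra_real {b : Basis (Fin n) ℝ L} {ρ : G →* Module.End ℝ L} (h : RA b ρ) :
    ∃ N : Subgroup G, N.Normal ∧ N.FiniteIndex ∧ IsOpen (N : Set G) ∧
      ∃ τ : N →* SLn n, RS τ := by
  haveI := h.simple
  haveI : FiniteDimensional ℝ L := Module.Finite.of_basis b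
  have hm : Mod b.equivFun _ := mod_basis b
  obtain ⟨g, c₀, hg, hi, -, -, hmin⟩ := H899.Ad.mini _ hm.simp.lie hm.simp.nd
  have hu : IsUnit g.det := by
    rw [isUnit_iff_ne_zero]
    intro h0
    rw [h0, abs_zero] at hg
    exact zero_ne_one hg
  have h1 : g * g⁻¹ = 1 := Matrix.mul_nonsing_inv g hu
  have h2 : g⁻¹ * g = 1 := Matrix.nonsing_inv_mul g hu
  obtain ⟨φ, hφ, hφg⟩ := hm.iso hi h1 h2
  let γ : G →* Mat n :=
    { toFun := fun x => g * LinearMap.toMatrix b b (ρ x) * g⁻¹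
      map_one' := by
        rw [map_one, LinearMap.toMatrix_one, mul_one, h1]
      map_mul' := fun x y => by
        rw [map_mul, LinearMap.toMatrix_mul]
        calc g * (LinearMap.toMatrix b b (ρ x) * LinearMap.toMatrix b b (ρ y)) * g⁻¹ =
            g * LinearMap.toMatrix b b (ρ x) * (g⁻¹ * g) * LinearMap.toMatrix b b (ρ y) * g⁻¹ := by
              rw [h2]; simp only [mul_assoc, one_mul]
          _ = _ := by simp only [mul_assoc] }
  have hγ : ∀ x y, γ x *ᵥ φ y = φ (ρ x y) := by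
    intro x y
    show (g * LinearMap.toMatrix b b (ρ x) * g⁻¹) *ᵥ φ y = φ (ρ x y)
    rw [hφg, hφg, ← mulVec_mulVec, mulVec_mulVec _ g⁻¹ g, h2, one_mulVec, ← mulVec_mulVec]
    congr 1
    exact LinearMap.toMatrix_mulVec_repr b b (ρ x) y
  let H : Mat n ≃ₜ Mat n :=
    { toFun := fun M => g * M * g⁻¹
      invFun := fun M => g⁻¹ * M * g
      left_inv := fun M => by
        show g⁻¹ * (g * M * g⁻¹) * g = M
        calc g⁻¹ * (g * M * g⁻¹) * g = (g⁻¹ * g) * M * (g⁻¹ * g) := by simp only [mul_assoc]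
          _ = M := by rw [h2, one_mul, mul_one]
      right_inv := fun M => by
        show g * (g⁻¹ * M * g) * g⁻¹ = M
        calc g * (g⁻¹ * M * g) * g⁻¹ = (g * g⁻¹) * M * (g * g⁻¹) := by simp only [mul_assoc]
          _ = M := by rw [h1, one_mul, mul_one]
      continuous_toFun := (continuous_const.mul continuous_id).mul continuous_const
      continuous_invFun := (continuous_const.mul continuous_id).mul continuous_const }
  have he : IsEmbedding γ := H.isEmbedding.comp h.emb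
  have hiso : ∀ x, Iso (γ x) c₀ c₀ := by
    intro x v w
    rw [← φ.apply_symm_apply v, ← φ.apply_symm_apply w, ← hφ, hγ, hγ, hγ, h.lie, hφ]
  have hf : ∀ v, IsNilpotent (adm c₀ v) → ∃ x, γ x = NormedSpace.exp (adm c₀ v) := by
    intro v hv
    rw [← φ.apply_symm_apply v] at hv ⊢
    have hn := (nil_iff hφ).1 hv
    obtain ⟨x, hx⟩ := h.full _ hn
    refine ⟨x, ?_⟩
    refine ext_mulVec fun w => ?_
    rw [← φ.apply_symm_apply w, hγ, hx, exp_eu hφ hn]
  obtain ⟨x₀, hx₀, hx₀n⟩ := h.iso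
  have hx₀' : φ x₀ ≠ 0 := fun h0 => hx₀ (by rwa [LinearEquiv.map_eq_zero_iff] at h0)
  obtain ⟨hRS, M, hM1, hM2, hM3, ⟨e⟩⟩ := core H624.Ad.simB hφ.simp hmin hx₀'
    ((nil_iff hφ).2 hx₀n) he hiso hf
  exact ⟨M, hM1, hM2, hM3, _, rs_congr hRS e⟩

theorem isLie_rs (h : IsLie ℝ G) : IsTopologicalGroup G ∧ ∃ N : Subgroup G, N.Normal ∧
    N.FiniteIndex ∧ IsOpen (N : Set G) ∧ ∃ (n : ℕ) (τ : N →* SLn n), RS τ := by
  obtain ⟨L, _, _, n, b, ρ, h⟩ := isLie_ra h
  refine ⟨?_, ?_⟩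
  · let γ : G →* Matrix (Fin n) (Fin n) ℝ :=
      { toFun := fun x => LinearMap.toMatrix b b (ρ x)
        map_one' := by rw [map_one, LinearMap.toMatrix_one]
        map_mul' := fun x y => by rw [map_mul, LinearMap.toMatrix_mul] }
    exact H35.Rp.topGroup (φ := γ) h.emb
  · obtain ⟨N, h1, h2, h3, τ, h4⟩ := ra_real h
    exact ⟨N, h1, h2, h3, n, τ, h4⟩

end Vale.Agent.P092.H338.Ov
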