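import Vale.Agent.P092.H338.Ad9b
import Vale.Agent.P092.H259.Re.Real

/-!
P092, project RE-ADJ, block [AD-9] (helper338), part 3: with `QF`.
-/

set_option linter.all false

namespace Vale.Agent.P092.H338.Ov

open Vale.Agent.P092.H35.Rp (IsLie)

variable {G : Type} [Group G] [TopologicalSpace G]

/-- **Every group between `E(L)` and `Aut(L)`, `L` a simple real Lie algebra with a nonzero
ad-nilpotent element, is a finite extension of a factor.** -/
theorem isLie_real (h : IsLie ℝ G) : IsTopologicalGroup G ∧ ∃ N : Subgroup G, N.Normal ∧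
    N.FiniteIndex ∧ IsOpen (N : Set G) ∧ ∃ r, QC.QF N r := by
  obtain ⟨h0, N, h1, h2, h3, n, τ, h4⟩ := isLie_rs h
  exact ⟨h0, N, h1, h2, h3, H259.Re.qf_real h4⟩

end Vale.Agent.P092.H338.Ov
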